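import Mathlib

/-!
Reconstruction of a field embedding from a multiplicative-to-additive map `ω : K → W` that sends
`1 + x` to a multiple of the image of `x` (a Ceva-type argument).
-/

set_option autoImplicit false
set_option linter.unusedSectionVars false

namespace Crest.Agent.R009

variable {K L W : Type*} [Field K] [Field L] [AddCommGroup W] [Module L W]

/-- The data of a "logarithmic" map whose image is not contained in a line and which sends
`1 + x` into the line spanned by the image of `x`. -/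
structure IsLogLine (L : Type*) [Field L] [Module L W] (ω : K → W) : Prop where
  mul : ∀ x y : K, x ≠ 0 → y ≠ 0 → ω (x * y) = ω x + ω y
  neg_one : ω (-1) = 0
  prop : ∀ x : K, x ≠ 0 → 1 + x ≠ 0 → ∃ r : L, ω (1 + x) = r • ω x
  rank : ∀ w : W, ∃ u : K, u ≠ 0 ∧ ∀ r : L, ω u ≠ r • w

/-- Linear independence of a pair, in elementary form. -/
def Ind (L : Type*) [Field L] [Module L W] (p q : W) : Prop :=
  ∀ s t : L, s • p + t • q = 0 → s = 0 ∧ t = 0

lemma Ind.of_ne {p q : W} (hp : p ≠ 0) (hq : ∀ r : L, q ≠ r • p) : Ind L p q := by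
  intro s t h
  have ht : t = 0 := by
    by_contra ht
    apply hq (-(t⁻¹ * s))
    have : q = t⁻¹ • (t • q) := by rw [smul_smul, inv_mul_cancel₀ ht, one_smul]
    rw [this, eq_neg_of_add_eq_zero_right h, smul_neg, smul_smul, neg_smul]
  refine ⟨?_, ht⟩
  rw [ht, zero_smul, add_zero] at h
  exact (smul_eq_zero.1 h).resolve_right hp

lemma Ind.symm {p q : W} (h : Ind L p q) : Ind L q p := fun s t hst =>
  (h t s (by rw [add_comm]; exact hst)).symm

lemma Ind.left_ne {p q : W} (h : Ind L p q) : p ≠ 0 := by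
  intro hp
  have := (h 1 0 (by simp [hp])).1
  exact one_ne_zero this

lemma Ind.right_ne {p q : W} (h : Ind L p q) : q ≠ 0 := h.symm.left_ne

lemma Ind.coeff {p q : W} (h : Ind L p q) {s t s' t' : L}
    (e : s • p + t • q = s' • p + t' • q) : s = s' ∧ t = t' := by
  have := h (s - s') (t - t') (by
    rw [sub_smul, sub_smul]
    calc s • p - s' • p + (t • q - t' • q) = (s • p + t • q) - (s' • p + t' • q) := by abel
      _ = 0 := by rw [e, sub_self])
  exact ⟨sub_eq_zero.1 this.1, sub_eq_zero.1 this.2⟩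

namespace IsLogLine

variable {ω : K → W} (H : IsLogLine L ω)
include H

lemma one : ω 1 = 0 := by
  have := H.mul 1 1 one_ne_zero one_ne_zero
  rw [mul_one] at this
  simpa using this

lemma inv {x : K} (hx : x ≠ 0) : ω x⁻¹ = -ω x := by
  have := H.mul x x⁻¹ hx (inv_ne_zero hx)
  rw [mul_inv_cancel₀ hx, H.one] at this
  exact (neg_eq_of_add_eq_zero_right this.symm).symm

lemma div {x y : K} (hx : x ≠ 0) (hy : y ≠ 0) : ω (x / y) = ω x - ω y := by
  rw [div_eq_mul_inv, H.mul x _ hx (inv_ne_zero hy), H.inv hy, sub_eq_add_neg]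

lemma neg {x : K} (hx : x ≠ 0) : ω (-x) = ω x := by
  rw [← neg_one_mul, H.mul _ _ (by simp) hx, H.neg_one, zero_add]

lemma one_add_ne {x : K} (h : ω x ≠ 0) : 1 + x ≠ 0 := by
  intro e
  have : x = -1 := by linear_combination e
  exact h (this ▸ H.neg_one)

lemma one_add_zero {x : K} (hx : x ≠ 0) (hx1 : 1 + x ≠ 0) (h : ω x = 0) : ω (1 + x) = 0 := by
  obtain ⟨r, hr⟩ := H.prop x hx hx1
  rw [hr, h, smul_zero]

lemma one_add_omega_ne {x : K} (hx : x ≠ 0) (h : ω x ≠ 0) : ω (1 + x) ≠ 0 := by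
  intro e
  have h1 : 1 + x ≠ 0 := H.one_add_ne h
  have h2 : ω (-(1 + x)) = 0 := by rw [H.neg h1, e]
  have h3 := H.one_add_zero (neg_ne_zero.2 h1) (by simpa using hx) h2
  have h4 : (1 + -(1 + x)) = -x := by ring
  rw [h4, H.neg hx] at h3
  exact h h3

lemma one_add_omega_ne' {x : K} (hx : x ≠ 0) (h : ω x ≠ 0) : ω (1 + x) ≠ ω x := by
  intro e
  have h1 : ω x⁻¹ ≠ 0 := by rw [H.inv hx]; exact neg_ne_zero.2 h
  have h2 := H.one_add_omega_ne (inv_ne_zero hx) h1
  have h3 : 1 + x = x * (1 + x⁻¹) := by field_simp; ring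
  rw [h3, H.mul _ _ hx (H.one_add_ne h1)] at e
  exact h2 (by simpa using e)

lemma exists_coef {x : K} (hx : x ≠ 0) (h : ω x ≠ 0) :
    ∃ a : L, a ≠ 0 ∧ a + 1 ≠ 0 ∧ (a + 1) • ω (1 + x) = a • ω x := by
  obtain ⟨r, hr⟩ := H.prop x hx (H.one_add_ne h)
  have h0 : r ≠ 0 := by
    rintro rfl
    exact H.one_add_omega_ne hx h (by simpa using hr)
  have h1 : 1 - r ≠ 0 := by
    intro e
    have : r = 1 := by linear_combination -e
    subst this
    exact H.one_add_omega_ne' hx h (by simpa using hr)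
  refine ⟨r / (1 - r), div_ne_zero h0 h1, ?_, ?_⟩
  · have : r / (1 - r) + 1 = 1 / (1 - r) := by field_simp; ring
    rw [this]; exact one_div_ne_zero h1
  · rw [hr, smul_smul]
    congr 1
    field_simp; ring

lemma coef_unique {x : K} (hx : x ≠ 0) (h : ω x ≠ 0) {a b : L}
    (ha : (a + 1) • ω (1 + x) = a • ω x) (hb : (b + 1) • ω (1 + x) = b • ω x) : a = b := by
  have h1 : (a - b) • (ω (1 + x) - ω x) = 0 := by
    have : (a - b) • (ω (1 + x) - ω x) =
        ((a + 1) • ω (1 + x) - a • ω x) - ((b + 1) • ω (1 + x) - b • ω x) := by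
      module
    rw [this, ha, hb]; simp
  rcases smul_eq_zero.1 h1 with h2 | h2
  · exact sub_eq_zero.1 h2
  · exact absurd (sub_eq_zero.1 h2) (H.one_add_omega_ne' hx h)

open Classical in
/-- The barycentric coefficient attached to `x` with `ω x ≠ 0`. -/
noncomputable def coef (x : K) : L :=
  if h : x ≠ 0 ∧ ω x ≠ 0 then (H.exists_coef h.1 h.2).choose else 0

lemma coef_spec {x : K} (hx : x ≠ 0) (h : ω x ≠ 0) :
    H.coef x ≠ 0 ∧ H.coef x + 1 ≠ 0 ∧ (H.coef x + 1) • ω (1 + x) = H.coef x • ω x := by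
  have : H.coef x = (H.exists_coef hx h).choose := by
    unfold coef; rw [dif_pos ⟨hx, h⟩]
  rw [this]
  exact (H.exists_coef hx h).choose_spec

lemma coef_add_spec {x y : K} (hx : x ≠ 0) (hy : y ≠ 0) (h : ω x ≠ ω y) :
    x + y ≠ 0 ∧ H.coef (x / y) ≠ 0 ∧ H.coef (x / y) + 1 ≠ 0 ∧
      (H.coef (x / y) + 1) • ω (x + y) = H.coef (x / y) • ω x + ω y := by
  have h1 : ω (x / y) ≠ 0 := by rw [H.div hx hy]; exact sub_ne_zero.2 h
  obtain ⟨h2, h3, h4⟩ := H.coef_spec (div_ne_zero hx hy) h1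
  have h5 := H.one_add_ne h1
  have h6 : x + y = y * (1 + x / y) := by field_simp; ring
  refine ⟨by rw [h6]; exact mul_ne_zero hy h5, h2, h3, ?_⟩
  rw [h6, H.mul _ _ hy h5, smul_add, h4, H.div hx hy]
  module

/-- The Ceva-type identities. -/
lemma ceva {u v : K} (hu : u ≠ 0) (hv : v ≠ 0) (h : Ind L (ω u) (ω v)) :
    H.coef (u + v) = H.coef u + H.coef v ∧ H.coef (u / v) * H.coef v = H.coef u := by
  have hune : ω u ≠ ω v := by
    intro e
    have := (h 1 (-1) (by rw [e]; simp)).1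
    exact one_ne_zero this
  obtain ⟨a0, a1, a2⟩ := H.coef_spec hu h.left_ne
  obtain ⟨b0, b1, b2⟩ := H.coef_spec hv h.right_ne
  obtain ⟨s0, c0, c1, c2⟩ := H.coef_add_spec hu hv hune
  set a := H.coef u
  set b := H.coef v
  set c := H.coef (u / v)
  have e1 : ω (1 + u) = (a / (a + 1)) • ω u := by
    rw [div_eq_inv_mul, ← smul_smul, ← a2, smul_smul, inv_mul_cancel₀ a1, one_smul]
  have e2 : ω (1 + v) = (b / (b + 1)) • ω v := by
    rw [div_eq_inv_mul, ← smul_smul, ← b2, smul_smul, inv_mul_cancel₀ b1, one_smul]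
  have e3 : ω (u + v) = (c / (c + 1)) • ω u + (1 / (c + 1)) • ω v := by
    have : ω (u + v) = (c + 1)⁻¹ • ((c + 1) • ω (u + v)) := by
      rw [smul_smul, inv_mul_cancel₀ c1, one_smul]
    rw [this, c2, smul_add, smul_smul, div_eq_inv_mul, one_div]
  have hs : ω (u + v) ≠ 0 := by
    intro e
    rw [e3] at e
    exact one_div_ne_zero c1 (h _ _ e).2
  obtain ⟨d0, d1, d2⟩ := H.coef_spec s0 hs
  set d := H.coef (u + v)
  have hu1 : 1 + u ≠ 0 := H.one_add_ne h.left_ne
  have hv1 : 1 + v ≠ 0 := H.one_add_ne h.right_ne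
  have n1 : ω (1 + u) ≠ ω v := by
    intro e
    rw [e1] at e
    have := (h (a / (a + 1)) (-1) (by rw [e]; simp)).2
    simp at this
  have n2 : ω (1 + v) ≠ ω u := by
    intro e
    rw [e2] at e
    have := (h (-1) (b / (b + 1)) (by rw [e]; simp)).1
    simp at this
  obtain ⟨-, f0, f1, f2⟩ := H.coef_add_spec hu1 hv n1
  obtain ⟨-, g0, g1, g2⟩ := H.coef_add_spec hv1 hu n2
  set f := H.coef ((1 + u) / v)
  set g := H.coef ((1 + v) / u)
  rw [show 1 + u + v = 1 + (u + v) by ring] at f2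
  rw [show 1 + v + u = 1 + (u + v) by ring] at g2
  set S := ω (1 + (u + v))
  have E1 : S = (d / (d + 1) * (c / (c + 1))) • ω u + (d / (d + 1) * (1 / (c + 1))) • ω v := by
    have : S = (d + 1)⁻¹ • ((d + 1) • S) := by rw [smul_smul, inv_mul_cancel₀ d1, one_smul]
    rw [this, d2, e3, div_eq_inv_mul d]
    module
  have E2 : S = (f / (f + 1) * (a / (a + 1))) • ω u + (1 / (f + 1)) • ω v := by
    have : S = (f + 1)⁻¹ • ((f + 1) • S) := by rw [smul_smul, inv_mul_cancel₀ f1, one_smul]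
    rw [this, f2, e1, div_eq_inv_mul f, one_div]
    module
  have E3 : S = (1 / (g + 1)) • ω u + (g / (g + 1) * (b / (b + 1))) • ω v := by
    have : S = (g + 1)⁻¹ • ((g + 1) • S) := by rw [smul_smul, inv_mul_cancel₀ g1, one_smul]
    rw [this, g2, e2, div_eq_inv_mul g, one_div]
    module
  obtain ⟨p1, p2⟩ := h.coeff (E1.symm.trans E2)
  obtain ⟨q1, q2⟩ := h.coeff (E1.symm.trans E3)
  set A := d / (d + 1) * (c / (c + 1)) with hA
  set B := d / (d + 1) * (1 / (c + 1)) with hB
  have r1 : A * (a + 1) = (1 - B) * a := by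
    rw [p1, p2]; field_simp; ring
  have r2 : B * (b + 1) = (1 - A) * b := by
    rw [q1, q2]; field_simp; ring
  have r3 : (A + B) * (d + 1) = d := by
    rw [hA, hB]; field_simp
  have r4 : A = c * B := by
    rw [hA, hB]; field_simp
  have t0 : (1 - A - B) * (d + 1) = 1 := by linear_combination -r3
  have t1 : 1 - A - B ≠ 0 := by
    intro e; rw [e, zero_mul] at t0; exact zero_ne_one t0
  constructor
  · apply mul_left_cancel₀ t1
    linear_combination t0 + r1 + r2
  · apply mul_left_cancel₀ t1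
    linear_combination r1 - c * r2 - r4

lemma coef_mul {u v : K} (hu : u ≠ 0) (hv : v ≠ 0) (h : Ind L (ω u) (ω v)) :
    H.coef (u * v) = H.coef u * H.coef v := by
  have h' : Ind L (ω (u * v)) (ω v) := by
    intro s t e
    rw [H.mul u v hu hv] at e
    have := h s (s + t) (by rw [← e]; module)
    refine ⟨this.1, ?_⟩
    have h2 := this.2
    rwa [this.1, zero_add] at h2
  have := (H.ceva (mul_ne_zero hu hv) hv h').2
  rw [mul_div_cancel_right₀ u hv] at this
  exact this.symm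

lemma rank2 (p q : W) : ∃ u : K, u ≠ 0 ∧ (∀ r : L, ω u ≠ r • p) ∧ ∀ r : L, ω u ≠ r • q := by
  obtain ⟨u, hu, hup⟩ := H.rank p
  obtain ⟨v, hv, hvq⟩ := H.rank q
  by_cases h1 : ∀ r : L, ω u ≠ r • q
  · exact ⟨u, hu, hup, h1⟩
  by_cases h2 : ∀ r : L, ω v ≠ r • p
  · exact ⟨v, hv, h2, hvq⟩
  push Not at h1 h2
  obtain ⟨r, hr⟩ := h1
  obtain ⟨s, hs⟩ := h2
  refine ⟨u * v, mul_ne_zero hu hv, fun t e => hup (t - s) ?_, fun t e => hvq (t - r) ?_⟩
  · rw [H.mul u v hu hv, hs] at e
    rw [sub_smul, ← e]; simp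
  · rw [H.mul u v hu hv, hr] at e
    rw [sub_smul, ← e]; simp

open Classical in
/-- The reconstructed map, as a bare function. -/
noncomputable def alphaFun (x : K) : L :=
  if x = 0 then 0 else H.coef (x * (H.rank (ω x)).choose) / H.coef (H.rank (ω x)).choose

lemma alphaFun_zero : H.alphaFun 0 = 0 := by simp [alphaFun]

lemma ne_zero_of_rank {w : K} {p : W} (h : ∀ r : L, ω w ≠ r • p) : ω w ≠ 0 := by
  have := h 0
  rwa [zero_smul] at this

lemma alphaFun_spec {x w : K} (hx : x ≠ 0) (hw : w ≠ 0) (h : ∀ r : L, ω w ≠ r • ω x) :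
    H.coef (x * w) = H.alphaFun x * H.coef w := by
  obtain ⟨hw', h'⟩ := (H.rank (ω x)).choose_spec
  have hdef : H.alphaFun x = H.coef (x * (H.rank (ω x)).choose) / H.coef (H.rank (ω x)).choose := by
    unfold alphaFun; rw [if_neg hx]
  set w' := (H.rank (ω x)).choose
  have n' := (H.coef_spec hw' (H.ne_zero_of_rank h')).1
  by_cases hx0 : ω x = 0
  · have key : ∀ a b : K, a ≠ 0 → b ≠ 0 → Ind L (ω a) (ω b) →
        H.coef (x * a) * H.coef b = H.coef a * H.coef (x * b) := by
      intro a b ha hb hab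
      have i1 : Ind L (ω (x * a)) (ω b) := by rwa [H.mul x a hx ha, hx0, zero_add]
      have i2 : Ind L (ω a) (ω (x * b)) := by rwa [H.mul x b hx hb, hx0, zero_add]
      rw [← H.coef_mul (mul_ne_zero hx ha) hb i1, ← H.coef_mul ha (mul_ne_zero hx hb) i2]
      congr 1; ring
    obtain ⟨m, hm, m1, m2⟩ := H.rank2 (ω w) (ω w')
    have k1 := key w m hw hm (Ind.of_ne (H.ne_zero_of_rank h) m1)
    have k2 := key w' m hw' hm (Ind.of_ne (H.ne_zero_of_rank h') m2)
    have nm := (H.coef_spec hm (H.ne_zero_of_rank m1)).1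
    rw [hdef]
    field_simp
    apply mul_right_cancel₀ nm
    linear_combination H.coef w' * k1 - H.coef w * k2
  · rw [hdef, H.coef_mul hx hw (Ind.of_ne hx0 h), H.coef_mul hx hw' (Ind.of_ne hx0 h')]
    field_simp

lemma alphaFun_eq_coef {x : K} (hx : x ≠ 0) (h : ω x ≠ 0) : H.alphaFun x = H.coef x := by
  obtain ⟨w, hw, hw'⟩ := H.rank (ω x)
  have h1 := H.alphaFun_spec hx hw hw'
  rw [H.coef_mul hx hw (Ind.of_ne h hw')] at h1
  exact (mul_right_cancel₀ (H.coef_spec hw (H.ne_zero_of_rank hw')).1 h1).symm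

lemma alphaFun_one : H.alphaFun 1 = 1 := by
  obtain ⟨w, hw, hw'⟩ := H.rank (ω 1)
  have h1 := H.alphaFun_spec one_ne_zero hw hw'
  rw [one_mul] at h1
  apply mul_right_cancel₀ (H.coef_spec hw (H.ne_zero_of_rank hw')).1
  rw [← h1, one_mul]

lemma alphaFun_mul (x y : K) : H.alphaFun (x * y) = H.alphaFun x * H.alphaFun y := by
  rcases eq_or_ne x 0 with rfl | hx
  · simp [H.alphaFun_zero]
  rcases eq_or_ne y 0 with rfl | hy
  · simp [H.alphaFun_zero]
  by_cases hi : Ind L (ω x) (ω y)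
  · have : ω (x * y) ≠ 0 := by
      intro e
      rw [H.mul x y hx hy] at e
      exact one_ne_zero (hi 1 1 (by simpa using e)).1
    rw [H.alphaFun_eq_coef (mul_ne_zero hx hy) this, H.alphaFun_eq_coef hx hi.left_ne,
      H.alphaFun_eq_coef hy hi.right_ne, H.coef_mul hx hy hi]
  · have : ∃ (p : W) (s t : L), ω x = s • p ∧ ω y = t • p := by
      by_cases hx0 : ω x = 0
      · exact ⟨ω y, 0, 1, by simp [hx0], by simp⟩
      · by_contra hc
        apply hi
        refine Ind.of_ne hx0 fun r e => hc ⟨ω x, 1, r, by simp, e⟩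
    obtain ⟨p, s, t, hs, ht⟩ := this
    obtain ⟨w, hw, hw'⟩ := H.rank p
    have k1 := H.alphaFun_spec (mul_ne_zero hx hy) hw (fun r e => hw' (r * (s + t)) (by
      rw [e, H.mul x y hx hy, hs, ht]; module))
    have k2 := H.alphaFun_spec hx (mul_ne_zero hy hw) (fun r e => hw' (r * s - t) (by
      rw [H.mul y w hy hw, hs, ht] at e
      rw [eq_sub_of_add_eq' e]; module))
    have k3 := H.alphaFun_spec hy hw (fun r e => hw' (r * t) (by rw [e, ht, smul_smul]))
    apply mul_right_cancel₀ (H.coef_spec hw (H.ne_zero_of_rank hw')).1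
    rw [← k1, mul_assoc x, k2, k3, mul_assoc]

lemma alphaFun_add_of_ne {x y : K} (hx : x ≠ 0) (hy : y ≠ 0) (h : ω x ≠ ω y) :
    H.alphaFun (x + y) = H.alphaFun x + H.alphaFun y := by
  obtain ⟨m, hm, hm'⟩ := H.rank (ω y - ω x)
  have hz : x * m ≠ 0 := mul_ne_zero hx hm
  have hi : Ind L (ω (x / (x * m))) (ω (y / (x * m))) := by
    intro s t e
    rw [H.div hx hz, H.div hy hz, H.mul x m hx hm] at e
    have i0 : Ind L (ω y - ω x) (ω m) := Ind.of_ne (sub_ne_zero.2 h.symm) hm'
    have := i0 t (-(s + t)) (by rw [← e]; module)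
    refine ⟨?_, this.1⟩
    have h2 := this.2
    rw [this.1, add_zero, neg_eq_zero] at h2
    exact h2
  have hu := div_ne_zero hx hz
  have hv := div_ne_zero hy hz
  have hne : ω (x / (x * m)) ≠ ω (y / (x * m)) := by
    intro e
    exact one_ne_zero (hi 1 (-1) (by rw [e]; simp)).1
  obtain ⟨s0, c0, c1, c2⟩ := H.coef_add_spec hu hv hne
  have hs : ω (x / (x * m) + y / (x * m)) ≠ 0 := by
    intro e
    rw [e, smul_zero] at c2
    exact one_ne_zero (hi (H.coef (x / (x * m) / (y / (x * m)))) 1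
      (by rw [one_smul]; exact c2.symm)).2
  have k := (H.ceva hu hv hi).1
  rw [← H.alphaFun_eq_coef s0 hs, ← H.alphaFun_eq_coef hu hi.left_ne,
    ← H.alphaFun_eq_coef hv hi.right_ne] at k
  have e1 : x + y = (x * m) * (x / (x * m) + y / (x * m)) := by field_simp
  have e2 : x = (x * m) * (x / (x * m)) := by field_simp
  have e3 : y = (x * m) * (y / (x * m)) := by field_simp
  calc H.alphaFun (x + y) = H.alphaFun (x * m) * H.alphaFun (x / (x * m) + y / (x * m)) := by
        rw [← H.alphaFun_mul, ← e1]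
    _ = H.alphaFun (x * m) * H.alphaFun (x / (x * m)) +
          H.alphaFun (x * m) * H.alphaFun (y / (x * m)) := by rw [k, mul_add]
    _ = _ := by rw [← H.alphaFun_mul, ← H.alphaFun_mul, ← e2, ← e3]

lemma omega_add_of_eq {x y : K} (hx : x ≠ 0) (hy : y ≠ 0) (hxy : x + y ≠ 0) (h : ω x = ω y) :
    ω (x + y) = ω x := by
  have h6 : x + y = y * (1 + x / y) := by field_simp; ring
  have h5 : 1 + x / y ≠ 0 := by
    intro e; rw [e, mul_zero] at h6; exact hxy h6
  rw [h6, H.mul _ _ hy h5, H.one_add_zero (div_ne_zero hx hy) h5 (by rw [H.div hx hy, h, sub_self]),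
    add_zero, h]

lemma omega_add_ne {x y : K} (hx : x ≠ 0) (hy : y ≠ 0) (h : ω x ≠ ω y) :
    x + y ≠ 0 ∧ ω (x + y) ≠ ω y := by
  obtain ⟨s0, c0, c1, c2⟩ := H.coef_add_spec hx hy h
  refine ⟨s0, fun e => ?_⟩
  rw [e, add_smul, one_smul] at c2
  have := add_right_cancel c2
  exact h (smul_right_injective W c0 this).symm

lemma alphaFun_add (x y : K) : H.alphaFun (x + y) = H.alphaFun x + H.alphaFun y := by
  rcases eq_or_ne x 0 with rfl | hx
  · simp [H.alphaFun_zero]
  rcases eq_or_ne y 0 with rfl | hy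
  · simp [H.alphaFun_zero]
  by_cases h : ω x = ω y
  swap
  · exact H.alphaFun_add_of_ne hx hy h
  obtain ⟨w, hw, hw'⟩ := H.rank (ω y)
  have n1 : ω w ≠ ω y := by have := hw' 1; rwa [one_smul] at this
  obtain ⟨s1, n2⟩ := H.omega_add_ne hw hy n1
  have k1 := H.alphaFun_add_of_ne hw hy n1
  have k2 := H.alphaFun_add_of_ne s1 hx (by rwa [h])
  rw [k1] at k2
  by_cases hxy : x + y = 0
  · rw [show w + y + x = w + (x + y) by ring, hxy, add_zero] at k2
    rw [hxy, H.alphaFun_zero]
    linear_combination k2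
  · have k3 := H.alphaFun_add_of_ne hw hxy (by rwa [H.omega_add_of_eq hx hy hxy h, h])
    rw [show w + y + x = w + (x + y) by ring, k3] at k2
    linear_combination k2

/-- The reconstructed field embedding. -/
noncomputable def alpha : K →+* L where
  toFun := H.alphaFun
  map_one' := H.alphaFun_one
  map_mul' := H.alphaFun_mul
  map_zero' := H.alphaFun_zero
  map_add' := H.alphaFun_add

lemma alpha_spec (x y : K) :
    H.alpha (x + y) • ω (x + y) = H.alpha x • ω x + H.alpha y • ω y := by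
  rcases eq_or_ne x 0 with rfl | hx
  · simp
  rcases eq_or_ne y 0 with rfl | hy
  · simp
  by_cases h : ω x = ω y
  · by_cases hxy : x + y = 0
    · have : H.alpha x + H.alpha y = 0 := by rw [← map_add, hxy, map_zero]
      rw [hxy, map_zero, zero_smul, h, ← add_smul, this, zero_smul]
    · rw [H.omega_add_of_eq hx hy hxy h, map_add, add_smul, ← h]
  · obtain ⟨s0, c0, c1, c2⟩ := H.coef_add_spec hx hy h
    have e : H.coef (x / y) = H.alpha x / H.alpha y := by
      rw [← map_div₀]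
      exact (H.alphaFun_eq_coef (div_ne_zero hx hy)
        (by rw [H.div hx hy]; exact sub_ne_zero.2 h)).symm
    have hy' : H.alpha y ≠ 0 := (map_ne_zero _).2 hy
    have e2 : H.alpha (x + y) = H.alpha y * (H.alpha x / H.alpha y + 1) := by
      rw [map_add]; field_simp
    rw [e] at c2
    rw [e2, mul_smul, c2, smul_add, smul_smul, mul_div_cancel₀ _ hy']

lemma unique {α β : K →+* L}
    (hα : ∀ x : K, α (1 + x) • ω (1 + x) = α x • ω x)
    (hβ : ∀ x : K, β (1 + x) • ω (1 + x) = β x • ω x) : α = β := by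
  have key : ∀ x : K, x ≠ 0 → ω x ≠ 0 → α x = β x := by
    intro x hx h
    refine H.coef_unique hx h ?_ ?_
    · rw [← hα, map_add, map_one, add_comm]
    · rw [← hβ, map_add, map_one, add_comm]
  ext x
  rcases eq_or_ne x 0 with rfl | hx
  · simp
  by_cases h : ω x = 0
  · obtain ⟨w, hw, hw'⟩ := H.rank 0
    have n := H.ne_zero_of_rank hw'
    have k1 := key w hw n
    have k2 := key (x * w) (mul_ne_zero hx hw) (by rwa [H.mul x w hx hw, h, zero_add])
    rw [map_mul, map_mul, k1] at k2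
    exact mul_right_cancel₀ ((map_ne_zero β).2 hw) k2
  · exact key x hx h

end IsLogLine

end Crest.Agent.R009
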