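import Mathlib

/-!
Derivations and Kähler differentials of fields of characteristic `p`.
-/

set_option autoImplicit false
set_option linter.unusedSectionVars false
set_option linter.style.haveILetI false

namespace Crest.Agent.R009

open Polynomial IntermediateField

section kerD

variable {K : Type*} [Field K] {p : ℕ} [hp : Fact p.Prime] [CharP K p]

lemma minpoly_eq_of_pow_mem (E : Subfield K) (hE : ∀ y : K, y ^ p ∈ E) {z : K} (hz : z ∉ E) :
    minpoly E z = X ^ p - C (⟨z ^ p, hE z⟩ : E) := by
  symm
  apply minpoly.eq_of_irreducible_of_monic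
  · apply X_pow_sub_C_irreducible_of_prime hp.out
    intro b hb
    apply hz
    have h1 : (b : K) ^ p = z ^ p := by
      have := congrArg (fun t : E => (t : K)) hb
      simpa using this
    have h2 : (b : K) = z := frobenius_inj K p h1
    rw [← h2]; exact b.2
  · simp only [map_sub, map_pow, aeval_X, aeval_C]
    exact sub_self _
  · exact monic_X_pow_sub_C _ hp.out.ne_zero

lemma isIntegral_of_pow_mem (E : Subfield K) (hE : ∀ y : K, y ^ p ∈ E) (z : K) :
    IsIntegral E z := by
  refine ⟨X ^ p - C (⟨z ^ p, hE z⟩ : E), monic_X_pow_sub_C _ hp.out.ne_zero, ?_⟩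
  simp only [eval₂_sub, eval₂_pow, eval₂_X, eval₂_C]
  exact sub_self _

lemma finrank_adjoin_of_pow_mem (E : Subfield K) (hE : ∀ y : K, y ^ p ∈ E) {z : K} (hz : z ∉ E) :
    Module.finrank E E⟮z⟯ = p := by
  rw [adjoin.finrank (isIntegral_of_pow_mem E hE z), minpoly_eq_of_pow_mem E hE hz,
    natDegree_X_pow_sub_C]

lemma exists_derivation_of_not_pow {x : K} (hx : ∀ y : K, y ^ p ≠ x) :
    ∃ D : Derivation ℤ K K, D x = 1 := by
  obtain ⟨E, -, ⟨hE, hxE⟩, hmax⟩ := zorn_le_nonempty₀
    {E : Subfield K | (∀ y : K, y ^ p ∈ E) ∧ x ∉ E} (fun c hc hchain y hy => by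
      refine ⟨sSup c, ⟨fun z => le_sSup hy ((hc hy).1 z), fun h => ?_⟩, fun z hz => le_sSup hz⟩
      rw [Subfield.mem_sSup_of_directedOn ⟨y, hy⟩ hchain.directedOn] at h
      obtain ⟨s, hs, hxs⟩ := h
      exact (hc hs).2 hxs) (frobenius K p).fieldRange
    ⟨fun y => ⟨y, rfl⟩, fun ⟨y, hy⟩ => hx y hy⟩
  have htop : ∀ z : K, z ∈ E⟮x⟯ := by
    intro z
    by_cases hz : z ∈ E
    · exact (E⟮x⟯).algebraMap_mem ⟨z, hz⟩
    have hle : E ≤ (E⟮z⟯).toSubfield := fun t ht => (E⟮z⟯).algebraMap_mem ⟨t, ht⟩
    have hxz : x ∈ E⟮z⟯ := by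
      by_contra hc
      exact hz (hmax ⟨fun y => hle (hE y), hc⟩ hle (mem_adjoin_simple_self E z))
    have : FiniteDimensional E E⟮z⟯ := adjoin.finiteDimensional (isIntegral_of_pow_mem E hE z)
    have h1 : E⟮x⟯ = E⟮z⟯ := by
      apply eq_of_le_of_finrank_eq (adjoin_simple_le_iff.2 hxz)
      rw [finrank_adjoin_of_pow_mem E hE hz, finrank_adjoin_of_pow_mem E hE hxE]
    rw [h1]; exact mem_adjoin_simple_self E z
  have hsurj : Function.Surjective (aeval x : E[X] →ₐ[E] K) := by
    intro z
    have := htop z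
    rw [← mem_toSubalgebra, adjoin_simple_toSubalgebra_of_isAlgebraic
      (isIntegral_of_pow_mem E hE x).isAlgebraic, Algebra.adjoin_singleton_eq_range_aeval] at this
    exact this
  have hd : ∀ q : E[X], aeval x q = 0 → aeval x (derivative' q) = 0 := by
    intro q hq
    obtain ⟨r, rfl⟩ := minpoly.dvd E x hq
    have h0 : aeval x (derivative (minpoly E x)) = 0 := by
      rw [minpoly_eq_of_pow_mem E hE hxE]
      simp [derivative_X_pow]
    simp [h0]
  refine ⟨(Derivation.liftOfSurjective hsurj hd).restrictScalars ℤ, ?_⟩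
  have := Derivation.liftOfSurjective_apply hsurj hd X
  simpa using this

lemma D_pow_char {M : Type*} [AddCommGroup M] [Module K M] (D : Derivation ℤ K M) (y : K) :
    D (y ^ p) = 0 := by
  rw [D.leibniz_pow, ← Nat.cast_smul_eq_nsmul K, CharP.cast_eq_zero, zero_smul]

lemma D_eq_zero_iff {x : K} : KaehlerDifferential.D ℤ K x = 0 ↔ ∃ y : K, y ^ p = x := by
  constructor
  · intro h
    by_contra hc
    push Not at hc
    obtain ⟨D, hD⟩ := exists_derivation_of_not_pow hc
    rw [← D.liftKaehlerDifferential_comp_D, h, map_zero] at hD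
    exact zero_ne_one hD
  · rintro ⟨y, rfl⟩
    exact D_pow_char _ y

lemma iterate_leibniz (D : Derivation ℤ K K) (n : ℕ) (a b : K) :
    D^[n] (a * b) = ∑ ij ∈ Finset.HasAntidiagonal.antidiagonal n, n.choose ij.1 • (D^[ij.1] a * D^[ij.2] b) := by
  induction n with
  | zero => simp
  | succ n ih =>
    rw [Finset.sum_antidiagonal_choose_succ_nsmul (M := K) (fun i j => D^[i] a * D^[j] b) n]
    simp only [Function.iterate_succ_apply', ih, map_sum, map_nsmul, D.leibniz, smul_add,
      Finset.sum_add_distrib, smul_eq_mul, add_right_inj]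
    refine Finset.sum_congr rfl fun ⟨i, j⟩ hij ↦ ?_
    rw [n.choose_symm_of_eq_add (Finset.HasAntidiagonal.mem_antidiagonal.1 hij).symm, mul_comm]

/-- The `p`-th iterate of a derivation in characteristic `p` satisfies the Leibniz rule. -/
lemma iterate_char_leibniz (D : Derivation ℤ K K) (a b : K) :
    D^[p] (a * b) = a * D^[p] b + b * D^[p] a := by
  rw [iterate_leibniz, Finset.Nat.sum_antidiagonal_eq_sum_range_succ
    (fun i j => p.choose i • (D^[i] a * D^[j] b)) p, Finset.sum_range_succ]
  have hp0 : 0 < p := hp.out.pos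
  rw [Finset.sum_eq_single 0]
  · simp [mul_comm]
  · intro i hi hi0
    rw [nsmul_eq_mul, (CharP.cast_eq_zero_iff K p _).2
      (hp.out.dvd_choose_self hi0 (Finset.mem_range.1 hi)), zero_mul]
  · intro h
    exact absurd (Finset.mem_range.2 hp0) h

lemma iterate_add (D : Derivation ℤ K K) (n : ℕ) (a b : K) :
    D^[n] (a + b) = D^[n] a + D^[n] b := by
  induction n with
  | zero => simp
  | succ n ih => simp only [Function.iterate_succ_apply', ih, map_add]

lemma iterate_zero (D : Derivation ℤ K K) (n : ℕ) : D^[n] 0 = 0 := by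
  induction n with
  | zero => simp
  | succ n ih => simp only [Function.iterate_succ_apply', ih, map_zero]

/-- The `p`-th iterate of a derivation, as a derivation. -/
noncomputable def iterDer (p : ℕ) [Fact p.Prime] [CharP K p] (D : Derivation ℤ K K) :
    Derivation ℤ K K :=
  Derivation.mk' (AddMonoidHom.toIntLinearMap
    { toFun := D^[p], map_zero' := iterate_zero D p, map_add' := iterate_add D p })
    (fun a b => iterate_char_leibniz D a b)

lemma iterDer_apply (D : Derivation ℤ K K) (a : K) : iterDer p D a = D^[p] a := rfl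

lemma iterate_of_eigen (D : Derivation ℤ K K) {c g : K} (hc : D c = 0) (hg : D g = c * g) (n : ℕ) :
    D^[n] g = c ^ n * g := by
  induction n with
  | zero => simp
  | succ n ih =>
    rw [Function.iterate_succ_apply', ih, D.leibniz, D.leibniz_pow, hc, hg]
    simp only [smul_eq_mul, mul_zero, smul_zero, add_zero]
    ring

end kerD

section rank

universe u

variable {k K : Type u} [Field k] [Field K] [Algebra k K]

open scoped IntermediateField.algebraAdjoinAdjoin in
lemma rank_kaehler_eq_trdeg [PerfectField k] [Algebra.EssFiniteType k K] :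
    Module.rank K Ω[K⁄k] = Algebra.trdeg k K := by
  obtain ⟨s, hs, H⟩ := exists_isTranscendenceBasis_and_isSeparable_of_perfectField k K
  set v : s → K := (↑) with hv
  have hsep : Algebra.IsSeparable (↥(IntermediateField.adjoin k (Set.range v))) K := by
    convert! H <;> simp [hv]
  have e1 : Algebra.FormallyEtale (IntermediateField.adjoin k (Set.range v)) K :=
    Algebra.FormallyEtale.of_isSeparable _ K
  have e2 : Algebra.FormallyEtale (Algebra.adjoin k (Set.range v))
      (IntermediateField.adjoin k (Set.range v)) :=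
    .of_isLocalization (nonZeroDivisors _)
  have e3 : Algebra.FormallyEtale (Algebra.adjoin k (Set.range v)) K :=
    .comp _ (IntermediateField.adjoin k (Set.range v)) _
  letI : Algebra (MvPolynomial s k) (Algebra.adjoin k (Set.range v)) :=
    hs.1.aevalEquiv.toAlgHom.toRingHom.toAlgebra
  letI : Algebra (MvPolynomial s k) K :=
    ((algebraMap (Algebra.adjoin k (Set.range v)) K).comp
      hs.1.aevalEquiv.toAlgHom.toRingHom).toAlgebra
  haveI : IsScalarTower (MvPolynomial s k) (Algebra.adjoin k (Set.range v)) K :=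
    IsScalarTower.of_algebraMap_eq' rfl
  haveI : IsScalarTower k (MvPolynomial s k) K := by
    apply IsScalarTower.of_algebraMap_eq
    intro a
    simp [RingHom.algebraMap_toAlgebra]
  have e4 : Algebra.FormallyEtale (MvPolynomial s k) (Algebra.adjoin k (Set.range v)) := by
    refine Algebra.FormallyEtale.of_equiv (AlgEquiv.ofBijective (Algebra.ofId _ _) ?_)
    exact hs.1.aevalEquiv.bijective
  have e5 : Algebra.FormallyEtale (MvPolynomial s k) K :=
    .comp _ (Algebra.adjoin k (Set.range v)) _
  rw [← (KaehlerDifferential.tensorKaehlerEquivOfFormallyEtale k (MvPolynomial s k) K).rank_eq,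
    Module.rank_baseChange, ← (KaehlerDifferential.mvPolynomialBasis k s).mk_eq_rank'',
    ← hs.cardinalMk_eq_trdeg, Cardinal.lift_id]

lemma rank_kaehler_int_eq (p : ℕ) [Fact p.Prime] [CharP k p] [PerfectField k] :
    Module.rank K Ω[K⁄ℤ] = Module.rank K Ω[K⁄k] := by
  have hsub : Subsingleton Ω[k⁄ℤ] := by
    rw [← Submodule.subsingleton_iff k, ← subsingleton_iff_bot_eq_top,
      ← KaehlerDifferential.span_range_derivation, eq_comm, Submodule.span_eq_bot]
    rintro _ ⟨x, rfl⟩
    obtain ⟨y, rfl⟩ := surjective_frobenius k p x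
    exact D_pow_char _ y
  refine (LinearEquiv.ofBijective (KaehlerDifferential.map ℤ k K K) ⟨?_, ?_⟩).rank_eq
  · rw [injective_iff_map_eq_zero]
    intro x hx
    obtain ⟨y, rfl⟩ := (KaehlerDifferential.exact_mapBaseChange_map ℤ k K x).mp hx
    rw [Subsingleton.elim y 0, map_zero]
  · exact KaehlerDifferential.map_surjective ℤ k K

end rank

end Crest.Agent.R009
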