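import Crest.Agent.R009.Deriv
import Crest.Agent.R009.Ceva

/-!
A derivation `E : L → Ω_L` such that every `E y / y` is a logarithmic form is an `𝔽_p`-multiple
of the universal derivation; perfect subfields of function fields lie in the constant field.
-/

set_option autoImplicit false
set_option linter.unusedSectionVars false
set_option linter.style.haveILetI false

namespace Crest.Agent.R009

open KaehlerDifferential

section

variable {L W : Type*} [Field L] [AddCommGroup W] [Module L W]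

lemma exists_smul_of_forms {v w : W} (hv : v ≠ 0)
    (h : ∀ φ ψ : W →ₗ[L] L, φ v * ψ w = ψ v * φ w) : ∃ r : L, w = r • v := by
  obtain ⟨φ, hφ⟩ := Module.Projective.exists_dual_eq_one L hv
  refine ⟨φ w, ?_⟩
  rw [← sub_eq_zero, ← Module.forall_dual_apply_eq_zero_iff L]
  intro ψ
  have := h φ ψ
  rw [hφ, one_mul] at this
  rw [map_sub, map_smul, this, smul_eq_mul, mul_comm, sub_self]

end

variable {L : Type*} [Field L]

lemma exists_D_not_mem (h : 2 ≤ Module.rank L Ω[L⁄ℤ]) (w : Ω[L⁄ℤ]) :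
    ∃ y : L, ∀ r : L, D ℤ L y ≠ r • w := by
  by_contra hc
  push Not at hc
  have h1 : (⊤ : Submodule L Ω[L⁄ℤ]) ≤ Submodule.span L {w} := by
    rw [← span_range_derivation, Submodule.span_le]
    rintro _ ⟨y, rfl⟩
    obtain ⟨r, hr⟩ := hc y
    rw [hr]
    exact Submodule.smul_mem _ _ (Submodule.mem_span_singleton_self w)
  have h2 : Module.rank L Ω[L⁄ℤ] ≤ 1 := by
    rw [← rank_top]
    refine (Submodule.rank_mono h1).trans ?_
    simpa using rank_span_le (R := L) ({w} : Set Ω[L⁄ℤ])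
  have := h.trans h2
  norm_num at this

/-- Logarithmic forms are closed. -/
lemma closed_log (D₁ D₂ : Derivation ℤ L L) (g : L) :
    D₁ (g⁻¹ * D₂ g) - D₂ (g⁻¹ * D₁ g) = g⁻¹ * ⁅D₁, D₂⁆ g := by
  simp only [Derivation.leibniz, Derivation.leibniz_inv, smul_eq_mul, Derivation.commutator_apply]
  ring

variable {p : ℕ} [hp : Fact p.Prime] [CharP L p]

lemma scalar_of_log (p : ℕ) [hp : Fact p.Prime] [CharP L p] (h : 2 ≤ Module.rank L Ω[L⁄ℤ]) (E : Derivation ℤ L Ω[L⁄ℤ])
    (hE : ∀ y : L, y ≠ 0 → ∃ g : L, g ≠ 0 ∧ y⁻¹ • E y = g⁻¹ • D ℤ L g) :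
    ∃ n : ℤ, ∀ y : L, E y = (n : L) • D ℤ L y := by
  -- the basic identity
  have key : ∀ (φ ψ : Ω[L⁄ℤ] →ₗ[L] L) (y : L), y ≠ 0 →
      y * ((φ.compDer (D ℤ L)) (ψ (E y)) - (ψ.compDer (D ℤ L)) (φ (E y)) -
        (⁅φ.compDer (D ℤ L), ψ.compDer (D ℤ L)⁆ : Derivation ℤ L L).liftKaehlerDifferential (E y))
      = φ (D ℤ L y) * ψ (E y) - ψ (D ℤ L y) * φ (E y) := by
    intro φ ψ y hy
    obtain ⟨g, hg, e⟩ := hE y hy
    set D₁ := φ.compDer (D ℤ L) with hD₁
    set D₂ := ψ.compDer (D ℤ L) with hD₂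
    have c := closed_log D₁ D₂ g
    have e1 : g⁻¹ * D₁ g = y⁻¹ * φ (E y) := by
      have := congrArg φ e
      simp only [map_smul, smul_eq_mul] at this
      exact this.symm
    have e2 : g⁻¹ * D₂ g = y⁻¹ * ψ (E y) := by
      have := congrArg ψ e
      simp only [map_smul, smul_eq_mul] at this
      exact this.symm
    have e3 : g⁻¹ * ⁅D₁, D₂⁆ g =
        y⁻¹ * (⁅D₁, D₂⁆ : Derivation ℤ L L).liftKaehlerDifferential (E y) := by
      have := congrArg (⁅D₁, D₂⁆ : Derivation ℤ L L).liftKaehlerDifferential e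
      simp only [map_smul, smul_eq_mul, Derivation.liftKaehlerDifferential_comp_D] at this
      exact this.symm
    rw [e1, e2, e3] at c
    simp only [Derivation.leibniz, Derivation.leibniz_inv, smul_eq_mul] at c
    have f1 : D₁ y = φ (D ℤ L y) := rfl
    have f2 : D₂ y = ψ (D ℤ L y) := rfl
    rw [f1, f2] at c
    field_simp at c
    linear_combination c
  have keyA : ∀ (φ ψ : Ω[L⁄ℤ] →ₗ[L] L) (y : L),
      ((φ.compDer (D ℤ L)) (ψ (E y)) - (ψ.compDer (D ℤ L)) (φ (E y)) -
        (⁅φ.compDer (D ℤ L), ψ.compDer (D ℤ L)⁆ : Derivation ℤ L L).liftKaehlerDifferential (E y))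
      = 0 := by
    intro φ ψ y
    rcases eq_or_ne y 0 with rfl | hy
    · simp
    rcases eq_or_ne (y + 1) 0 with hy1 | hy1
    · have : y = -1 := by linear_combination hy1
      subst this
      simp
    have k1 := key φ ψ y hy
    have k2 := key φ ψ (y + 1) hy1
    simp only [map_add, Derivation.map_one_eq_zero, add_zero] at k2
    linear_combination k2 - k1
  have prop : ∀ y : L, D ℤ L y ≠ 0 → ∃ r : L, E y = r • D ℤ L y := by
    intro y hy
    refine exists_smul_of_forms hy fun φ ψ => ?_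
    have hy0 : y ≠ 0 := by rintro rfl; simp at hy
    have k1 := key φ ψ y hy0
    rw [keyA, mul_zero] at k1
    linear_combination -k1
  have pair : ∀ (y z r s : L), Ind L (D ℤ L y) (D ℤ L z) → E y = r • D ℤ L y →
      E z = s • D ℤ L z → r = s := by
    intro y z r s hi hr hs
    obtain ⟨t, ht⟩ := prop (y + z) (by
      intro e
      rw [map_add] at e
      exact one_ne_zero (hi 1 1 (by simpa using e)).1)
    rw [map_add, map_add, hr, hs, smul_add] at ht
    obtain ⟨a, b⟩ := hi.coeff ht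
    rw [a, b]
  obtain ⟨f, hf⟩ := exists_D_not_mem h 0
  have hf0 : D ℤ L f ≠ 0 := by simpa using hf 0
  obtain ⟨c, hc⟩ := prop f hf0
  obtain ⟨f', hf'⟩ := exists_D_not_mem h (D ℤ L f)
  have i0 : Ind L (D ℤ L f) (D ℤ L f') := Ind.of_ne hf0 hf'
  have all : ∀ y : L, E y = c • D ℤ L y := by
    intro y
    by_cases hy : D ℤ L y = 0
    · obtain ⟨z, rfl⟩ := (D_eq_zero_iff (p := p)).1 hy
      rw [D_pow_char, D_pow_char, smul_zero]
    obtain ⟨r, hr⟩ := prop y hy
    obtain ⟨c', hc'⟩ := prop f' i0.right_ne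
    have e0 := pair _ _ _ _ i0 hc hc'
    by_cases hyf : ∀ t : L, D ℤ L y ≠ t • D ℤ L f
    · rw [hr, pair _ _ _ _ (Ind.of_ne hf0 hyf) hc hr]
    · push Not at hyf
      obtain ⟨t, ht⟩ := hyf
      have i1 : Ind L (D ℤ L y) (D ℤ L f') :=
        Ind.of_ne hy fun u e => hf' (u * t) (by rw [e, ht, smul_smul])
      rw [hr, pair _ _ _ _ i1 hr hc', e0]
  have dc : ∀ y : L, D ℤ L y ≠ 0 → ∃ r : L, D ℤ L c = r • D ℤ L y := by
    intro y hy
    refine exists_smul_of_forms hy fun φ ψ => ?_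
    have k := keyA φ ψ y
    rw [all] at k
    simp only [map_smul, smul_eq_mul, Derivation.leibniz,
      Derivation.liftKaehlerDifferential_comp_D, Derivation.commutator_apply] at k
    have f1 : ∀ x, (φ.compDer (D ℤ L)) x = φ (D ℤ L x) := fun _ => rfl
    have f2 : ∀ x, (ψ.compDer (D ℤ L)) x = ψ (D ℤ L x) := fun _ => rfl
    simp only [f1, f2] at k
    linear_combination -k
  have dc0 : D ℤ L c = 0 := by
    obtain ⟨r, hr⟩ := dc f hf0
    obtain ⟨s, hs⟩ := dc f' i0.right_ne
    have := (i0 r (-s) (by rw [← hr, neg_smul, ← hs, add_neg_cancel])).1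
    rw [hr, this, zero_smul]
  have hfne : f ≠ 0 := by rintro rfl; simp at hf0
  obtain ⟨g, hg, e⟩ := hE f hfne
  obtain ⟨φ, hφ⟩ := Module.Projective.exists_dual_eq_one L hf0
  set δ : Derivation ℤ L L := f • φ.compDer (D ℤ L) with hδ
  have gen : ∀ Δ : Derivation ℤ L L, Δ f = f → Δ g = c * g := by
    intro Δ hΔ
    have := congrArg Δ.liftKaehlerDifferential e
    rw [all] at this
    simp only [map_smul, smul_eq_mul, Derivation.liftKaehlerDifferential_comp_D, hΔ] at this
    field_simp at this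
    exact this.symm
  have δf : δ f = f := by
    have : δ f = f * φ (D ℤ L f) := rfl
    rw [this, hφ, mul_one]
  have δc : δ c = 0 := by
    have : δ c = f * φ (D ℤ L c) := rfl
    rw [this, dc0, map_zero, mul_zero]
  have h1 : iterDer p δ f = f := by
    rw [iterDer_apply, iterate_of_eigen δ (c := 1) (by simp) (by rw [δf, one_mul]), one_pow, one_mul]
  have h2 := gen _ h1
  rw [iterDer_apply, iterate_of_eigen δ δc (gen δ δf)] at h2
  have h3 : c ^ p = c := mul_right_cancel₀ hg h2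
  obtain ⟨n, hn⟩ := (mem_bot_iff_intCast p L).1 ((Subfield.mem_bot_iff_pow_eq_self L p).2 h3)
  exact ⟨n, fun y => by rw [hn, all]⟩

lemma essFiniteType_of_closure (l : Subfield L)
    (hL : ∃ s : Finset L, Subfield.closure ((l : Set L) ∪ (s : Set L)) = ⊤) :
    Algebra.EssFiniteType l L := by
  obtain ⟨s, hs⟩ := hL
  rw [← IntermediateField.fg_top_iff]
  refine ⟨s, ?_⟩
  apply IntermediateField.toSubfield_injective
  rw [IntermediateField.adjoin_toSubfield, IntermediateField.top_toSubfield, ← hs]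
  congr 2
  ext x
  constructor
  · rintro ⟨y, rfl⟩
    exact y.2
  · intro hx
    exact ⟨⟨x, hx⟩, rfl⟩

lemma rank_eq_trdeg (p : ℕ) [Fact p.Prime] [CharP L p] (l : Subfield L) [PerfectField l]
    [Algebra.EssFiniteType l L] : Module.rank L Ω[L⁄ℤ] = Algebra.trdeg l L := by
  rw [rank_kaehler_int_eq (k := l) p, rank_kaehler_eq_trdeg]

/-- An element with `p ^ n`-th roots for all `n` lies in the algebraically closed constant field. -/
lemma mem_of_forall_root (l : Subfield L) [IsAlgClosed l] [Algebra.EssFiniteType l L] {x : L}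
    (hx : ∀ n : ℕ, ∃ y : L, y ^ p ^ n = x) : x ∈ l := by
  let N : Subfield L := ⨅ n : ℕ, (iterateFrobenius L p n).fieldRange
  have memN : ∀ z : L, z ∈ N ↔ ∀ n : ℕ, ∃ y : L, y ^ p ^ n = z := by
    intro z
    simp only [N, Subfield.mem_iInf, RingHom.mem_fieldRange, iterateFrobenius_def]
  have hle : l ≤ N := by
    intro z hz
    rw [memN]
    intro n
    obtain ⟨y, hy⟩ := IsAlgClosed.exists_pow_nat_eq (⟨z, hz⟩ : l) (pow_pos hp.out.pos n)
    exact ⟨y, by simpa using congrArg (fun t : l => (t : L)) hy⟩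
  haveI : PerfectRing N p := by
    apply PerfectRing.ofSurjective
    rintro ⟨z, hz⟩
    rw [memN] at hz
    obtain ⟨y, hy⟩ := hz 1
    rw [pow_one] at hy
    refine ⟨⟨y, (memN y).2 fun n => ?_⟩, Subtype.ext hy⟩
    obtain ⟨w, hw⟩ := hz (n + 1)
    refine ⟨w, frobenius_inj L p ?_⟩
    rw [frobenius_def, frobenius_def, hy, ← hw, ← pow_mul, pow_succ]
  haveI : PerfectField N := PerfectRing.toPerfectField N p
  letI : Algebra l N := (Subfield.inclusion hle).toAlgebra
  haveI : IsScalarTower l N L := IsScalarTower.of_algebraMap_eq fun _ => rfl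
  haveI : Algebra.EssFiniteType N L := Algebra.EssFiniteType.of_comp l N L
  have e1 := rank_eq_trdeg p l
  have e2 := rank_eq_trdeg p N
  have e3 := trdeg_add_eq l N (A := L)
  have fin : Algebra.trdeg l L < Cardinal.aleph0 := trdeg_lt_aleph0 l L
  rw [← e2, e1] at e3
  have e4 : Algebra.trdeg l N = 0 := by
    have := Cardinal.eq_of_add_eq_add_right (e3.trans (zero_add _).symm) fin
    exact this
  haveI : Algebra.IsAlgebraic l N := trdeg_eq_zero_iff.1 e4
  obtain ⟨y, hy⟩ := (IsAlgClosed.algebraMap_bijective_of_isIntegral (k := l) (K := N)).2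
    ⟨x, (memN x).2 hx⟩
  have : (y : L) = x := congrArg (fun t : N => (t : L)) hy
  rw [← this]; exact y.2

end Crest.Agent.R009
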