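import Crest.Prelude.Def_MilnorK
import Crest.Agent.R009.Scalar

/-!
The logarithmic differential on `Kˣ / (Kˣ)^p` and the reconstruction of field isomorphisms.
-/

set_option autoImplicit false
set_option linter.unusedSectionVars false
set_option linter.style.haveILetI false

namespace Crest.Agent.R009

open KaehlerDifferential Crest.NumberTheoryR.MilnorK

variable {K L : Type*} [Field K] [Field L] {p : ℕ} [hp : Fact p.Prime] [CharP K p] [CharP L p]

/-- The logarithmic differential. -/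
noncomputable def dlog (x : K) : Ω[K⁄ℤ] := x⁻¹ • D ℤ K x

lemma dlog_mul {x y : K} (hx : x ≠ 0) (hy : y ≠ 0) : dlog (x * y) = dlog x + dlog y := by
  simp only [dlog, Derivation.leibniz, smul_add, smul_smul]
  rw [add_comm]
  congr 2 <;> field_simp

lemma dlog_one : dlog (1 : K) = 0 := by simp [dlog]

lemma smul_dlog (x : K) : x • dlog x = D ℤ K x := by
  rcases eq_or_ne x 0 with rfl | hx
  · simp
  · rw [dlog, smul_smul, mul_inv_cancel₀ hx, one_smul]

variable (K) in
/-- The logarithmic differential on units. -/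
noncomputable def dlogU : Additive Kˣ →+ Ω[K⁄ℤ] where
  toFun u := dlog ((Additive.toMul u : Kˣ) : K)
  map_zero' := by simp [dlog_one]
  map_add' u v := by
    rw [toMul_add, Units.val_mul, dlog_mul (Units.ne_zero _) (Units.ne_zero _)]

variable (K p) in
/-- The logarithmic differential on the first Milnor K-group modulo `p`. -/
noncomputable def dlogK : KOne K p →+ Ω[K⁄ℤ] :=
  QuotientAddGroup.lift (pMultiples K p) (dlogU K) (by
    rintro _ ⟨u, rfl⟩
    rw [AddMonoidHom.mem_ker, nsmulAddMonoidHom_apply, map_nsmul, ← Nat.cast_smul_eq_nsmul K,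
      CharP.cast_eq_zero, zero_smul])

lemma dlogK_cls (u : Kˣ) : dlogK K p (cls K p u) = dlog (u : K) := rfl

lemma cls_surjective (a : KOne K p) : ∃ u : Kˣ, cls K p u = a := by
  obtain ⟨u, rfl⟩ := QuotientAddGroup.mk_surjective a
  exact ⟨Additive.toMul u, rfl⟩

lemma cls_mul (u v : Kˣ) : cls K p (u * v) = cls K p u + cls K p v := rfl

lemma cls_eq_zero_iff (u : Kˣ) : cls K p u = 0 ↔ ∃ y : K, y ^ p = u := by
  unfold cls
  rw [QuotientAddGroup.eq_zero_iff]
  constructor
  · rintro ⟨v, hv⟩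
    refine ⟨((Additive.toMul v : Kˣ) : K), ?_⟩
    have := congrArg (fun t : Additive Kˣ => ((Additive.toMul t : Kˣ) : K)) hv
    simpa using this
  · rintro ⟨y, hy⟩
    have hy0 : y ≠ 0 := by
      rintro rfl
      rw [zero_pow hp.out.ne_zero] at hy
      exact u.ne_zero hy.symm
    refine ⟨Additive.ofMul (Units.mk0 y hy0), ?_⟩
    rw [nsmulAddMonoidHom_apply, ← ofMul_pow]
    congr 1
    ext
    simpa using hy

lemma dlogK_eq_zero {a : KOne K p} (h : dlogK K p a = 0) : a = 0 := by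
  obtain ⟨u, rfl⟩ := cls_surjective a
  rw [dlogK_cls, dlog, smul_eq_zero] at h
  rw [cls_eq_zero_iff]
  exact (D_eq_zero_iff (p := p)).1 (h.resolve_left (inv_ne_zero u.ne_zero))

lemma dlogK_injective : Function.Injective (dlogK K p) :=
  (injective_iff_map_eq_zero _).2 fun _ => dlogK_eq_zero

lemma dlogK_intCast_smul (n : ℤ) (a : KOne K p) :
    dlogK K p ((n : ZMod p) • a) = (n : K) • dlogK K p a := by
  rw [Int.cast_smul_eq_zsmul, map_zsmul, Int.cast_smul_eq_zsmul]

lemma forms_of_mem_steinberg {a b : KOne K p}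
    (h : TensorProduct.tmul (ZMod p) a b ∈ steinberg K p) (φ ψ : Ω[K⁄ℤ] →ₗ[K] K) :
    φ (dlogK K p a) * ψ (dlogK K p b) = ψ (dlogK K p a) * φ (dlogK K p b) := by
  let f : KOne K p →+ KOne K p →+ K :=
    { toFun := fun a =>
        { toFun := fun b => φ (dlogK K p a) * ψ (dlogK K p b) - ψ (dlogK K p a) * φ (dlogK K p b)
          map_zero' := by simp
          map_add' := fun b c => by simp only [map_add]; ring }
      map_zero' := AddMonoidHom.ext fun b => by simp
      map_add' := fun a c => AddMonoidHom.ext fun b => by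
        simp only [map_add, AddMonoidHom.coe_mk, ZeroHom.coe_mk, AddMonoidHom.add_apply]
        ring }
  have hf : ∀ (r : ZMod p) (m n : KOne K p), f (r • m) n = f m (r • n) := by
    intro r m n
    obtain ⟨z, rfl⟩ := ZMod.intCast_surjective r
    simp only [f, AddMonoidHom.coe_mk, ZeroHom.coe_mk, dlogK_intCast_smul, map_smul, smul_eq_mul]
    ring
  let B : TensorProduct (ZMod p) (KOne K p) (KOne K p) →+ K :=
    TensorProduct.liftAddHom (R := ZMod p) (M := KOne K p) (N := KOne K p) f hf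
  have hB : ∀ t ∈ steinberg K p, B t = 0 := by
    intro t ht
    induction ht using Submodule.span_induction with
    | mem x hx =>
      obtain ⟨g, hg, hg1, rfl⟩ := hx
      rw [TensorProduct.liftAddHom_tmul]
      simp only [f, AddMonoidHom.coe_mk, ZeroHom.coe_mk, dlogK_cls, Units.val_mk0, dlog, map_sub,
        Derivation.map_one_eq_zero, zero_sub, smul_neg, map_neg, map_smul, smul_eq_mul]
      ring
    | zero => exact map_zero _
    | add x y _ _ hx hy => rw [map_add, hx, hy, add_zero]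
    | smul r x _ hx =>
      obtain ⟨z, rfl⟩ := ZMod.intCast_surjective r
      rw [Int.cast_smul_eq_zsmul, map_zsmul, hx, smul_zero]
  have := hB _ h
  rw [TensorProduct.liftAddHom_tmul] at this
  exact sub_eq_zero.1 this

/-- `Θ ⊗ Θ` sends Steinberg generators into the Steinberg subspace. -/
def Pres (Θ : KOne K p ≃ₗ[ZMod p] KOne L p) : Prop :=
  ∀ (f : K) (hf : f ≠ 0) (hf1 : 1 - f ≠ 0), TensorProduct.tmul (ZMod p)
    (Θ (cls K p (Units.mk0 f hf))) (Θ (cls K p (Units.mk0 (1 - f) hf1))) ∈ steinberg L p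

lemma pres_of_compatible {Θ : KOne K p ≃ₗ[ZMod p] KOne L p} (h : IsCompatible Θ) : Pres Θ := by
  intro f hf hf1
  rw [← h]
  exact ⟨_, Submodule.subset_span ⟨f, hf, hf1, rfl⟩, rfl⟩

lemma pres_symm_of_compatible {Θ : KOne K p ≃ₗ[ZMod p] KOne L p} (h : IsCompatible Θ) :
    Pres Θ.symm := by
  intro f hf hf1
  have h1 : TensorProduct.tmul (ZMod p) (cls L p (Units.mk0 f hf))
      (cls L p (Units.mk0 (1 - f) hf1)) ∈ steinberg L p :=
    Submodule.subset_span ⟨f, hf, hf1, rfl⟩
  rw [← h] at h1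
  obtain ⟨t, ht, e⟩ := h1
  have h2 := congrArg (TensorProduct.map Θ.symm.toLinearMap Θ.symm.toLinearMap) e
  rw [← LinearMap.comp_apply, ← TensorProduct.map_comp] at h2
  simp only [LinearEquiv.comp_coe, LinearEquiv.self_trans_symm, LinearEquiv.refl_toLinearMap,
    TensorProduct.map_id, LinearMap.id_apply, TensorProduct.map_tmul, LinearEquiv.coe_coe] at h2
  rw [← h2]; exact ht

lemma pres_refl : Pres (LinearEquiv.refl (ZMod p) (KOne K p)) := fun f hf hf1 =>
  Submodule.subset_span ⟨f, hf, hf1, rfl⟩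

open Classical in
/-- The logarithmic form attached to an element of `K` through `Θ`. -/
noncomputable def omega (Θ : KOne K p ≃ₗ[ZMod p] KOne L p) (x : K) : Ω[L⁄ℤ] :=
  if h : x = 0 then 0 else dlogK L p (Θ (cls K p (Units.mk0 x h)))

lemma omega_of_ne (Θ : KOne K p ≃ₗ[ZMod p] KOne L p) {x : K} (h : x ≠ 0) :
    omega Θ x = dlogK L p (Θ (cls K p (Units.mk0 x h))) := by
  unfold omega; rw [dif_neg h]

lemma omega_unit (Θ : KOne K p ≃ₗ[ZMod p] KOne L p) (u : Kˣ) :
    omega Θ (u : K) = dlogK L p (Θ (cls K p u)) := by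
  rw [omega_of_ne Θ u.ne_zero, Units.mk0_val]

lemma omega_refl (x : K) : omega (LinearEquiv.refl (ZMod p) (KOne K p)) x = dlog x := by
  rcases eq_or_ne x 0 with rfl | hx
  · simp [omega, dlog]
  · rw [omega_of_ne _ hx]; rfl

lemma omega_eq_zero_iff (Θ : KOne K p ≃ₗ[ZMod p] KOne L p) {x : K} (h : x ≠ 0) :
    omega Θ x = 0 ↔ ∃ y : K, y ^ p = x := by
  rw [omega_of_ne Θ h, map_eq_zero_iff _ dlogK_injective, map_eq_zero_iff _ Θ.injective,
    cls_eq_zero_iff, Units.val_mk0]

lemma omega_mul (Θ : KOne K p ≃ₗ[ZMod p] KOne L p) {x y : K} (hx : x ≠ 0) (hy : y ≠ 0) :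
    omega Θ (x * y) = omega Θ x + omega Θ y := by
  rw [omega_of_ne Θ hx, omega_of_ne Θ hy, omega_of_ne Θ (mul_ne_zero hx hy), ← map_add, ← map_add,
    ← cls_mul, Units.mk0_mul]

lemma isLogLine {Θ : KOne K p ≃ₗ[ZMod p] KOne L p} (hΘ : Pres Θ)
    (h : 2 ≤ Module.rank L Ω[L⁄ℤ]) : IsLogLine L (omega Θ) := by
  have hneg : omega Θ (-1) = 0 :=
    (omega_eq_zero_iff Θ (by simp)).2 ⟨-1, neg_one_pow_char K p⟩
  refine ⟨fun x y => omega_mul Θ, hneg, ?_, ?_⟩
  · intro x hx hx1
    by_cases h0 : omega Θ x = 0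
    · obtain ⟨y, rfl⟩ := (omega_eq_zero_iff Θ hx).1 h0
      refine ⟨0, ?_⟩
      rw [zero_smul, omega_eq_zero_iff Θ hx1]
      exact ⟨1 + y, by rw [add_pow_char, one_pow]⟩
    · refine exists_smul_of_forms h0 fun φ ψ => ?_
      have h1 : 1 - -x ≠ 0 := by rwa [sub_neg_eq_add]
      have := forms_of_mem_steinberg (hΘ (-x) (neg_ne_zero.2 hx) h1) φ ψ
      rw [← omega_of_ne, ← omega_of_ne, sub_neg_eq_add, ← neg_one_mul,
        omega_mul Θ (by simp) hx, hneg, zero_add] at this
      exact this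
  · intro w
    obtain ⟨y, hy⟩ := exists_D_not_mem h w
    have hy0 : y ≠ 0 := by
      rintro rfl
      exact hy 0 (by simp)
    obtain ⟨u, hu⟩ := cls_surjective (Θ.symm (cls L p (Units.mk0 y hy0)))
    refine ⟨u, u.ne_zero, fun r e => hy (y * r) ?_⟩
    rw [omega_unit, hu, LinearEquiv.apply_symm_apply, dlogK_cls, Units.val_mk0] at e
    rw [mul_smul, ← e, smul_dlog]

lemma exists_semilinear_lift {W : Type*} [AddCommGroup W] [Module K W] (β : L →+* K)
    (E : L →+ W) (hE : ∀ x y, E (x * y) = β x • E y + β y • E x) :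
    ∃ T : Ω[L⁄ℤ] →+ W, (∀ (a : L) w, T (a • w) = β a • T w) ∧ ∀ y, T (D ℤ L y) = E y := by
  letI : Module L W := Module.compHom W β
  haveI : IsScalarTower ℤ L W := inferInstance
  let E' : Derivation ℤ L W := Derivation.mk' E.toIntLinearMap hE
  refine ⟨E'.liftKaehlerDifferential.toAddMonoidHom, fun a w => ?_, fun y => ?_⟩
  · exact E'.liftKaehlerDifferential.map_smul a w
  · exact E'.liftKaehlerDifferential_comp_D y

lemma comp_eq_id {Θ : KOne K p ≃ₗ[ZMod p] KOne L p} (h1 : Pres Θ) (h2 : Pres Θ.symm)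
    (hK : 2 ≤ Module.rank K Ω[K⁄ℤ]) (hL : 2 ≤ Module.rank L Ω[L⁄ℤ]) :
    (isLogLine h2 hK).alpha.comp (isLogLine h1 hL).alpha = RingHom.id K := by
  set α := (isLogLine h1 hL).alpha
  set β := (isLogLine h2 hK).alpha
  have H2 := isLogLine h2 hK
  let E : L →+ Ω[K⁄ℤ] :=
    { toFun := fun y => β y • omega Θ.symm y
      map_zero' := by simp
      map_add' := (isLogLine h2 hK).alpha_spec }
  have hE : ∀ x y, E (x * y) = β x • E y + β y • E x := by
    intro x y
    rcases eq_or_ne x 0 with rfl | hx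
    · simp
    rcases eq_or_ne y 0 with rfl | hy
    · simp
    simp only [E, AddMonoidHom.coe_mk, ZeroHom.coe_mk, omega_mul _ hx hy, map_mul]
    module
  obtain ⟨T, hT1, hT2⟩ := exists_semilinear_lift β E hE
  have hT3 : ∀ a : KOne L p, T (dlogK L p a) = dlogK K p (Θ.symm a) := by
    intro a
    obtain ⟨u, rfl⟩ := cls_surjective a
    rw [dlogK_cls, dlog, hT1, hT2, ← omega_unit]
    simp only [E, AddMonoidHom.coe_mk, ZeroHom.coe_mk]
    rw [smul_smul, ← map_mul, inv_mul_cancel₀ u.ne_zero, map_one, one_smul]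
  have hT4 : ∀ x : K, T (omega Θ x) = omega (LinearEquiv.refl (ZMod p) (KOne K p)) x := by
    intro x
    rcases eq_or_ne x 0 with rfl | hx
    · simp [omega]
    · rw [omega_of_ne _ hx, hT3, LinearEquiv.symm_apply_apply, omega_of_ne _ hx]; rfl
  refine (isLogLine (pres_refl (p := p)) hK).unique (fun x => ?_) (fun x => ?_)
  · have := congrArg T ((isLogLine h1 hL).alpha_spec 1 x)
    rw [(isLogLine h1 hL).one, smul_zero, zero_add, hT1, hT1, hT4, hT4] at this
    exact this
  · simp only [RingHom.id_apply, omega_refl, smul_dlog, map_add, Derivation.map_one_eq_zero,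
      zero_add]

lemma map_le_of_isAlgClosed (p : ℕ) [hp : Fact p.Prime] [CharP L p] (k : Subfield K) (l : Subfield L)
    [IsAlgClosed k] [IsAlgClosed l] [Algebra.EssFiniteType l L] (α : K →+* L) {x : K} (hx : x ∈ k) : α x ∈ l := by
  refine mem_of_forall_root (p := p) l fun n => ?_
  obtain ⟨y, hy⟩ := IsAlgClosed.exists_pow_nat_eq (⟨x, hx⟩ : k) (pow_pos hp.out.pos n)
  refine ⟨α y, ?_⟩
  rw [← map_pow]
  congr 1
  simpa using congrArg (fun t : k => (t : K)) hy

theorem main (k : Subfield K) (l : Subfield L) [IsAlgClosed k] [IsAlgClosed l]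
    (hK : ∃ s : Finset K, Subfield.closure ((k : Set K) ∪ (s : Set K)) = ⊤)
    (hL : ∃ s : Finset L, Subfield.closure ((l : Set L) ∪ (s : Set L)) = ⊤)
    (hK2 : 2 ≤ Algebra.trdeg k K) (hL2 : 2 ≤ Algebra.trdeg l L)
    (Θ : KOne K p ≃ₗ[ZMod p] KOne L p) (hΘ : IsCompatible Θ) :
    ∃! α : K ≃+* L, k.map α.toRingHom = l ∧
      ∃ c : ZMod p, c ≠ 0 ∧ ∀ u : Kˣ,
        Θ (cls K p u) = c • cls L p (Units.map α.toRingHom.toMonoidHom u) := by
  haveI := essFiniteType_of_closure k hK
  haveI := essFiniteType_of_closure l hL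
  rw [← rank_eq_trdeg p k] at hK2
  rw [← rank_eq_trdeg p l] at hL2
  have h1 := pres_of_compatible hΘ
  have h2 := pres_symm_of_compatible hΘ
  have H1 := isLogLine h1 hL2
  have e1 := comp_eq_id h1 h2 hK2 hL2
  have e2 := comp_eq_id (Θ := Θ.symm) h2 h1 hL2 hK2
  let α : K ≃+* L := RingEquiv.ofRingHom (isLogLine h1 hL2).alpha (isLogLine h2 hK2).alpha e2 e1
  have hα : ∀ x y, α (x + y) • omega Θ (x + y) = α x • omega Θ x + α y • omega Θ y :=
    (isLogLine h1 hL2).alpha_spec
  let E₀ : L →+ Ω[L⁄ℤ] :=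
    { toFun := fun y => y • omega Θ (α.symm y)
      map_zero' := by simp
      map_add' := fun x y => by
        have := hα (α.symm x) (α.symm y)
        rw [← map_add] at this
        simpa only [RingEquiv.apply_symm_apply] using this }
  let E : Derivation ℤ L Ω[L⁄ℤ] := Derivation.mk' E₀.toIntLinearMap (by
    intro x y
    rcases eq_or_ne x 0 with rfl | hx
    · simp
    rcases eq_or_ne y 0 with rfl | hy
    · simp
    have hx' : α.symm x ≠ 0 := (map_ne_zero _).2 hx
    have hy' : α.symm y ≠ 0 := (map_ne_zero _).2 hy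
    simp only [E₀, AddMonoidHom.coe_toIntLinearMap, AddMonoidHom.coe_mk, ZeroHom.coe_mk, map_mul,
      omega_mul _ hx' hy']
    module)
  have hEy : ∀ y, E y = y • omega Θ (α.symm y) := fun _ => rfl
  obtain ⟨n, hn⟩ := scalar_of_log p hL2 E (by
    intro y hy
    have hy' : α.symm y ≠ 0 := (map_ne_zero _).2 hy
    obtain ⟨g, hg⟩ := cls_surjective (Θ (cls K p (Units.mk0 _ hy')))
    refine ⟨g, g.ne_zero, ?_⟩
    rw [hEy, smul_smul, inv_mul_cancel₀ hy, one_smul, omega_of_ne _ hy', ← hg, dlogK_cls, dlog])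
  have hc : ∀ u : Kˣ,
      Θ (cls K p u) = (n : ZMod p) • cls L p (Units.map α.toRingHom.toMonoidHom u) := by
    intro u
    apply dlogK_injective
    have hu : α u ≠ 0 := (map_ne_zero _).2 u.ne_zero
    have := hn (α u)
    rw [hEy, RingEquiv.symm_apply_apply, omega_unit] at this
    rw [dlogK_intCast_smul, dlogK_cls]
    change _ = (n : L) • dlog (α u)
    rw [dlog, smul_comm, ← this, smul_smul, inv_mul_cancel₀ hu, one_smul]
  have rel : ∀ (γ : K ≃+* L) (c : ZMod p),
      (∀ u : Kˣ, Θ (cls K p u) = c • cls L p (Units.map γ.toRingHom.toMonoidHom u)) →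
      ∀ x : K, γ (1 + x) • omega Θ (1 + x) = γ x • omega Θ x := by
    intro γ c h
    obtain ⟨m, rfl⟩ := ZMod.intCast_surjective c
    have : ∀ x : K, γ x • omega Θ x = (m : L) • D ℤ L (γ x) := by
      intro x
      rcases eq_or_ne x 0 with rfl | hx
      · simp
      rw [omega_of_ne _ hx, h, dlogK_intCast_smul, dlogK_cls, smul_comm]
      congr 1
      exact smul_dlog (γ x)
    intro x
    rw [this, this, map_add, map_one, map_add, Derivation.map_one_eq_zero, zero_add]
  refine ⟨α, ⟨?_, n, ?_, hc⟩, ?_⟩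
  · apply le_antisymm
    · rintro _ ⟨x, hx, rfl⟩
      exact map_le_of_isAlgClosed p k l _ hx
    · intro y hy
      exact ⟨α.symm y, map_le_of_isAlgClosed p l k α.symm.toRingHom hy,
        α.apply_symm_apply y⟩
  · intro h0
    obtain ⟨u, hu, hu'⟩ := H1.rank 0
    apply hu' 0
    rw [omega_of_ne _ hu, hc, h0, zero_smul, map_zero, zero_smul]
  · rintro γ ⟨-, c, -, hγ⟩
    have := H1.unique (α := γ.toRingHom) (β := α.toRingHom) (rel γ c hγ) (rel α n hc)
    exact RingEquiv.toRingHom_injective this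

end Crest.Agent.R009
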